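import Mathlib

/-!
Packings of a multiset of natural sizes into bins of capacity `L`.
-/

namespace Vale.Agent.P302

/-- `Pk L k M`: the multiset `M` can be split into `k` multisets of sum at most `L`. -/
inductive Pk (L : ℕ) : ℕ → Multiset ℕ → Prop
  | nil : Pk L 0 0
  | bin {k : ℕ} {M : Multiset ℕ} (B : Multiset ℕ) (hB : B.sum ≤ L) (hM : Pk L k M) :
      Pk L (k + 1) (B + M)

theorem Pk.zero_eq {L : ℕ} {M : Multiset ℕ} (h : Pk L 0 M) : M = 0 := by
  cases h
  rfl

theorem Pk.mono {L k : ℕ} {M : Multiset ℕ} (h : Pk L k M) :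
    ∀ {N : Multiset ℕ}, N ≤ M → Pk L k N := by
  induction h with
  | nil =>
    intro N hN
    have : N = 0 := by simpa using hN
    rw [this]
    exact Pk.nil
  | @bin k M B hB hM ih =>
    intro N hN
    have h1 : N = N ∩ B + (N - B) := by
      rw [add_comm]
      exact (Multiset.sub_add_inter N B).symm
    rw [h1]
    refine Pk.bin _ ?_ (ih ?_)
    · have h2 : N ∩ B ≤ B := Multiset.inter_le_right
      obtain ⟨u, hu⟩ := Multiset.le_iff_exists_add.1 h2
      have h3 : B.sum = (N ∩ B).sum + u.sum := by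
        conv_lhs => rw [hu]
        rw [Multiset.sum_add]
      omega
    · exact tsub_le_iff_left.2 hN

theorem Pk.sum_le {L k : ℕ} {M : Multiset ℕ} (h : Pk L k M) : M.sum ≤ k * L := by
  induction h with
  | nil => simp
  | @bin k M B hB hM ih =>
    rw [Multiset.sum_add]
    calc B.sum + M.sum ≤ L + k * L := Nat.add_le_add hB ih
      _ = (k + 1) * L := by ring

theorem Pk.exists_bin {L : ℕ} {k : ℕ} : ∀ {M : Multiset ℕ} {x : ℕ}, Pk L (k + 1) M → x ∈ M →
    ∃ B, B ≤ M ∧ x ∈ B ∧ B.sum ≤ L ∧ Pk L k (M - B) := by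
  induction k with
  | zero =>
    intro M x h hx
    cases h with
    | @bin _ M' B hB hM =>
      have h0 := hM.zero_eq
      subst h0
      refine ⟨B, by simp, by simpa using hx, hB, ?_⟩
      have : B + 0 - B = 0 := by simp
      rw [this]
      exact Pk.nil
  | succ k ih =>
    intro M x h hx
    cases h with
    | @bin _ M' B hB hM =>
      by_cases hxB : x ∈ B
      · refine ⟨B, Multiset.le_add_right _ _, hxB, hB, ?_⟩
        rw [add_tsub_cancel_left]
        exact hM
      · have hxM : x ∈ M' := by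
          rcases Multiset.mem_add.1 hx with h | h
          · exact absurd h hxB
          · exact h
        obtain ⟨B', h1, h2, h3, h4⟩ := ih hM hxM
        refine ⟨B', le_trans h1 (Multiset.le_add_left _ _), h2, h3, ?_⟩
        have h5 : B + M' - B' = B + (M' - B') := by
          rw [add_comm B M', add_comm B (M' - B')]
          exact (tsub_add_eq_add_tsub h1).symm
        rw [h5]
        exact Pk.bin B hB h4

theorem Pk.exists_max {L : ℕ} {k : ℕ} {M : Multiset ℕ} {x : ℕ} (h : Pk L (k + 1) M)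
    (hx : x ∈ M) :
    ∃ B, B ≤ M ∧ x ∈ B ∧ B.sum ≤ L ∧ Pk L k (M - B) ∧ ∀ y ∈ M - B, L < B.sum + y := by
  obtain ⟨B, h1, h2, h3, h4⟩ := h.exists_bin hx
  suffices H : ∀ n : ℕ, ∀ B : Multiset ℕ, B ≤ M → x ∈ B → B.sum ≤ L → Pk L k (M - B) →
      (M - B).card = n →
      ∃ B, B ≤ M ∧ x ∈ B ∧ B.sum ≤ L ∧ Pk L k (M - B) ∧ ∀ y ∈ M - B, L < B.sum + y from
    H _ B h1 h2 h3 h4 rfl
  intro n
  induction n with
  | zero =>
    intro B h1 h2 h3 h4 h5
    refine ⟨B, h1, h2, h3, h4, ?_⟩
    have : M - B = 0 := Multiset.card_eq_zero.1 h5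
    intro y hy
    rw [this] at hy
    simp at hy
  | succ n ih =>
    intro B h1 h2 h3 h4 h5
    by_cases hall : ∀ y ∈ M - B, L < B.sum + y
    · exact ⟨B, h1, h2, h3, h4, hall⟩
    · push Not at hall
      obtain ⟨y, hy, hyL⟩ := hall
      have e0 : y ::ₘ B = B + {y} := by rw [add_comm, Multiset.singleton_add]
      have e1 : M - (y ::ₘ B) = M - B - {y} := by rw [e0, tsub_add_eq_tsub_tsub]
      have e2 : ({y} : Multiset ℕ) ≤ M - B := Multiset.singleton_le.2 hy
      apply ih (y ::ₘ B)
      · rw [e0]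
        calc B + {y} ≤ B + (M - B) := by gcongr
          _ = M := add_tsub_cancel_of_le h1
      · exact Multiset.mem_cons_of_mem h2
      · rw [Multiset.sum_cons]
        omega
      · rw [e1]
        exact h4.mono tsub_le_self
      · rw [e1, Multiset.card_sub e2, h5]
        simp

end Vale.Agent.P302
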