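import Vale.Agent.P302.Defs
import Vale.Agent.P302.Pk

/-!
The optimal value and the value of the linear program of an instance given by a list of natural
sizes and a capacity.
-/

namespace Vale.Agent.P302

open Finset

theorem Pk.add_bin {L k : ℕ} {M : Multiset ℕ} (h : Pk L k M) : Pk L (k + 1) M := by
  have := Pk.bin (0 : Multiset ℕ) (by simp) h
  rwa [zero_add] at this

theorem Pk.mono_bins {L j k : ℕ} {M : Multiset ℕ} (h : Pk L j M) (hjk : j ≤ k) : Pk L k M := by
  induction hjk with
  | refl => exact h
  | step _ ih => exact ih.add_bin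

theorem Pk.of_assign {ι : Type} [DecidableEq ι] {L : ℕ} (s : ι → ℕ) (k : ℕ) :
    ∀ (S : Finset ι) (g : ι → ℕ), (∀ i ∈ S, g i < k) →
      (∀ b, ∑ i ∈ S.filter (fun i => g i = b), s i ≤ L) → Pk L k (S.val.map s) := by
  induction k with
  | zero =>
    intro S g h1 _
    have : S = ∅ := by
      rw [Finset.eq_empty_iff_forall_notMem]
      intro i hi
      exact absurd (h1 i hi) (by omega)
    subst this
    exact Pk.nil
  | succ k ih =>
    intro S g h1 h2
    have e : S.val.map s = (S.filter (fun i => g i = k)).val.map s +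
        (S.filter (fun i => ¬ g i = k)).val.map s := by
      rw [← Multiset.map_add, Finset.filter_val, Finset.filter_val,
        Multiset.filter_add_not]
    rw [e]
    refine Pk.bin _ (h2 k) (ih _ g ?_ ?_)
    · intro i hi
      have h3 := (Finset.mem_filter.1 hi)
      have h4 := h1 i h3.1
      have h5 := h3.2
      omega
    · intro b
      refine le_trans (Finset.sum_le_sum_of_subset ?_) (h2 b)
      intro i hi
      rw [Finset.mem_filter] at hi ⊢
      exact ⟨(Finset.mem_filter.1 hi.1).1, hi.2⟩

/-- The instance given by a list of natural sizes and a capacity. -/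
def inst (L : ℕ) (items : List ℕ) : Fin items.length → ℚ :=
  fun i => (items.get i : ℚ) / (L : ℚ)

theorem univ_map_get (items : List ℕ) :
    (univ : Finset (Fin items.length)).val.map items.get = (items : Multiset ℕ) := by
  rw [Fin.univ_val_map, List.ofFn_get]

theorem inst_isInstance {L : ℕ} {items : List ℕ} (hL : 0 < L)
    (h : ∀ v ∈ items, 0 < v ∧ v ≤ L) : IsInstance (inst L items) := by
  intro i
  obtain ⟨h1, h2⟩ := h (items.get i) (List.get_mem _ _)
  have hL' : (0 : ℚ) < L := by exact_mod_cast hL
  constructor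
  · have : (0 : ℚ) < (items.get i : ℚ) := by exact_mod_cast h1
    exact div_pos this hL'
  · have : (items.get i : ℚ) ≤ L := by exact_mod_cast h2
    exact (div_le_one hL').2 this

theorem Packable.pk {L : ℕ} {items : List ℕ} (hL : 0 < L) {k : ℕ}
    (h : Packable (inst L items) k) : Pk L k (items : Multiset ℕ) := by
  obtain ⟨f, hf⟩ := h
  rw [← univ_map_get]
  apply Pk.of_assign items.get k univ (fun i => (f i : ℕ))
  · intro i _
    exact (f i).2
  · intro b
    by_cases hb : b < k
    · have h1 := hf ⟨b, hb⟩
      have hL' : (0 : ℚ) < L := by exact_mod_cast hL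
      have h2 : univ.filter (fun i => f i = ⟨b, hb⟩) = univ.filter (fun i => (f i : ℕ) = b) := by
        ext i
        simp [Fin.ext_iff]
      rw [h2] at h1
      unfold inst at h1
      rw [← Finset.sum_div, div_le_one hL'] at h1
      exact_mod_cast h1
    · have : univ.filter (fun i => (f i : ℕ) = b) = ∅ := by
        rw [Finset.eq_empty_iff_forall_notMem]
        intro i hi
        have h3 := (Finset.mem_filter.1 hi).2
        have h4 := (f i).2
        omega
      rw [this]
      simp

theorem packable_self {n : ℕ} {a : Fin n → ℚ} (h : IsInstance a) : Packable a n := by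
  refine ⟨id, fun b => ?_⟩
  have : univ.filter (fun i => id i = b) = {b} := by
    ext i
    simp
  rw [this, Finset.sum_singleton]
  exact (h b).2

theorem lt_opt {L : ℕ} {items : List ℕ} (hL : 0 < L) (h : ∀ v ∈ items, 0 < v ∧ v ≤ L) {k : ℕ}
    (hk : ¬ Pk L k (items : Multiset ℕ)) : k < OPT (inst L items) := by
  by_contra hcon
  have h1 : OPT (inst L items) ≤ k := by omega
  have h2 : OPT (inst L items) ∈ {j : ℕ | Packable (inst L items) j} :=
    Nat.sInf_mem ⟨_, packable_self (inst_isInstance hL h)⟩
  have h3 : Packable (inst L items) (OPT (inst L items)) := h2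
  exact hk ((h3.pk hL).mono_bins h1)

/-- The vector of a pattern. -/
def vecOf (L : ℕ) (items : List ℕ) (p : List ℕ) : sizeSet (inst L items) → ℕ :=
  fun σ => p.countP (fun v : ℕ => decide ((v : ℚ) / (L : ℚ) = (σ : ℚ)))

theorem vecOf_sum (L : ℕ) (items : List ℕ) (p : List ℕ) :
    ∑ σ : sizeSet (inst L items), (σ : ℚ) * (vecOf L items p σ : ℚ) ≤ (p.sum : ℚ) / (L : ℚ) := by
  induction p with
  | nil => simp [vecOf]
  | cons v p ih =>
    have e : ∀ σ : sizeSet (inst L items), (σ : ℚ) * (vecOf L items (v :: p) σ : ℚ) =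
        (σ : ℚ) * (vecOf L items p σ : ℚ) + if (v : ℚ) / (L : ℚ) = (σ : ℚ) then (σ : ℚ) else 0 := by
      intro σ
      unfold vecOf
      rw [List.countP_cons]
      by_cases h : (v : ℚ) / (L : ℚ) = (σ : ℚ)
      · simp only [h, decide_true, if_true]
        push_cast
        ring
      · simp [h]
    rw [Finset.sum_congr rfl (fun σ _ => e σ), Finset.sum_add_distrib]
    have h2 : ∑ σ : sizeSet (inst L items), (if (v : ℚ) / (L : ℚ) = (σ : ℚ) then (σ : ℚ) else 0) ≤
        (v : ℚ) / (L : ℚ) := by
      have h0 : (0 : ℚ) ≤ (v : ℚ) / (L : ℚ) := by positivity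
      by_cases hv : ∃ σ : sizeSet (inst L items), (v : ℚ) / (L : ℚ) = (σ : ℚ)
      · obtain ⟨σ, hσ⟩ := hv
        rw [Finset.sum_eq_single σ]
        · rw [if_pos hσ, hσ]
        · intro τ _ hτ
          rw [if_neg]
          intro h
          apply hτ
          apply Subtype.ext
          rw [← h, hσ]
        · intro h
          exact absurd (Finset.mem_univ _) h
      · push Not at hv
        rw [Finset.sum_eq_zero]
        · exact h0
        · intro σ _
          rw [if_neg (hv σ)]
    rw [List.sum_cons, Nat.cast_add, add_div]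
    linarith

/-- The configuration of a pattern. -/
noncomputable def confOf (L : ℕ) (items : List ℕ) (p : List ℕ) : Config (inst L items) :=
  ⟨if (p.sum : ℚ) / (L : ℚ) ≤ 1 then vecOf L items p else fun _ => 0, by
    split_ifs with h
    · exact le_trans (vecOf_sum L items p) h
    · simp⟩

theorem confOf_val {L : ℕ} {items p : List ℕ} (hL : 0 < L) (h : p.sum ≤ L) :
    (confOf L items p).1 = vecOf L items p := by
  have hL' : (0 : ℚ) < L := by exact_mod_cast hL
  have h1 : (p.sum : ℚ) / (L : ℚ) ≤ 1 := by
    rw [div_le_one hL']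
    exact_mod_cast h
  change (if (p.sum : ℚ) / (L : ℚ) ≤ 1 then vecOf L items p else fun _ => 0) = _
  rw [if_pos h1]

/-- The fractional solution given by a list of weighted patterns. -/
noncomputable def solOf (L : ℕ) (items : List ℕ) (D : ℕ) (ps : List (ℕ × List ℕ)) :
    Config (inst L items) →₀ ℝ :=
  (ps.map fun q => Finsupp.single (confOf L items q.2) ((q.1 : ℝ) / (D : ℝ))).sum

theorem solOf_cons (L : ℕ) (items : List ℕ) (D : ℕ) (q : ℕ × List ℕ) (ps : List (ℕ × List ℕ)) :
    solOf L items D (q :: ps) =
      Finsupp.single (confOf L items q.2) ((q.1 : ℝ) / (D : ℝ)) + solOf L items D ps := by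
  simp [solOf]

theorem solOf_nonneg (L : ℕ) (items : List ℕ) (D : ℕ) (ps : List (ℕ × List ℕ))
    (c : Config (inst L items)) : 0 ≤ solOf L items D ps c := by
  induction ps with
  | nil => simp [solOf]
  | cons q ps ih =>
    rw [solOf_cons, Finsupp.add_apply]
    refine add_nonneg ?_ ih
    classical
    rw [Finsupp.single_apply]
    split_ifs
    · positivity
    · exact le_refl _

theorem solOf_value (L : ℕ) (items : List ℕ) (D : ℕ) (ps : List (ℕ × List ℕ)) :
    (solOf L items D ps).sum (fun _ w => w) = (((ps.map Prod.fst).sum : ℕ) : ℝ) / (D : ℝ) := by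
  induction ps with
  | nil => simp [solOf]
  | cons q ps ih =>
    rw [solOf_cons, Finsupp.sum_add_index' (by simp) (by simp), ih,
      Finsupp.sum_single_index (by simp), List.map_cons, List.sum_cons]
    push_cast
    ring

theorem solOf_cover {L : ℕ} {items : List ℕ} (hL : 0 < L) (D : ℕ) (ps : List (ℕ × List ℕ))
    (hps : ∀ q ∈ ps, q.2.sum ≤ L) (σ : sizeSet (inst L items)) (v : ℕ)
    (hv : (v : ℚ) / (L : ℚ) = (σ : ℚ)) :
    (solOf L items D ps).sum (fun c w => (c.1 σ : ℝ) * w) =
      (((ps.map fun q => q.1 * q.2.count v).sum : ℕ) : ℝ) / (D : ℝ) := by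
  have hL' : (0 : ℚ) < L := by exact_mod_cast hL
  induction ps with
  | nil => simp [solOf]
  | cons q ps ih =>
    have h1 : vecOf L items q.2 σ = q.2.count v := by
      unfold vecOf
      rw [List.count]
      apply List.countP_congr
      intro u _
      rw [decide_eq_true_iff, beq_iff_eq, ← hv, div_left_inj' hL'.ne', Nat.cast_inj]
    rw [solOf_cons, Finsupp.sum_add_index' (by simp) (by intro c x y; ring),
      ih (fun q hq => hps q (by simp [hq])), Finsupp.sum_single_index (by simp),
      confOf_val hL (hps q (by simp)), h1, List.map_cons, List.sum_cons]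
    push_cast
    ring

theorem lp_le {L : ℕ} {items : List ℕ} (hL : 0 < L) {D : ℕ} (hD : 0 < D)
    (ps : List (ℕ × List ℕ)) (hps : ∀ q ∈ ps, q.2.sum ≤ L)
    (hcov : ∀ v ∈ items, D * items.count v ≤ (ps.map fun q => q.1 * q.2.count v).sum) :
    LP (inst L items) ≤ (((ps.map Prod.fst).sum : ℕ) : ℝ) / (D : ℝ) := by
  have hL' : (0 : ℚ) < L := by exact_mod_cast hL
  have hD' : (0 : ℝ) < D := by exact_mod_cast hD
  apply csInf_le
  · refine ⟨0, ?_⟩
    rintro v ⟨z, hz, rfl⟩
    exact Finsupp.sum_nonneg (fun c _ => hz.nonneg c)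
  · refine ⟨solOf L items D ps, ⟨solOf_nonneg L items D ps, ?_⟩, (solOf_value L items D ps).symm⟩
    intro σ
    obtain ⟨i, _, hi⟩ := Finset.mem_image.1 σ.2
    have hv : ((items.get i : ℕ) : ℚ) / (L : ℚ) = (σ : ℚ) := hi
    rw [solOf_cover hL D ps hps σ (items.get i) hv, le_div_iff₀ hD']
    have h1 : mult (inst L items) σ = items.count (items.get i) := by
      unfold mult
      have e1 : items.count (items.get i) = Multiset.count (items.get i) (items : Multiset ℕ) := by
        simp
      rw [e1, ← univ_map_get, Multiset.count_map, ← Finset.filter_val, Finset.card_def]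
      congr 2
      ext j
      rw [Finset.mem_filter, Finset.mem_filter, ← hi]
      unfold inst
      rw [div_left_inj' hL'.ne']
      constructor
      · rintro ⟨h1, h2⟩
        exact ⟨h1, by exact_mod_cast h2.symm⟩
      · rintro ⟨h1, h2⟩
        exact ⟨h1, by exact_mod_cast h2.symm⟩
    rw [h1]
    have h2 := hcov (items.get i) (List.get_mem _ _)
    rw [mul_comm]
    exact_mod_cast h2

end Vale.Agent.P302
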