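import Mathlib

/-!
Bin packing instances, their optimal value and the value of the configuration linear program.
-/

namespace Vale.Agent.P302

open Finset

/-- The items of a bin packing instance have rational sizes in `(0, 1]`. -/
def IsInstance {n : ℕ} (a : Fin n → ℚ) : Prop :=
  ∀ i, 0 < a i ∧ a i ≤ 1

/-- The items can be partitioned into `k` bins, each of total size at most `1`. -/
def Packable {n : ℕ} (a : Fin n → ℚ) (k : ℕ) : Prop :=
  ∃ f : Fin n → Fin k, ∀ b : Fin k, ∑ i ∈ univ.filter (fun i => f i = b), a i ≤ 1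

/-- The least number of bins. -/
noncomputable def OPT {n : ℕ} (a : Fin n → ℚ) : ℕ :=
  sInf {k : ℕ | Packable a k}

/-- The set of the distinct sizes. -/
def sizeSet {n : ℕ} (a : Fin n → ℚ) : Finset ℚ :=
  univ.image a

/-- The multiplicity of a size. -/
def mult {n : ℕ} (a : Fin n → ℚ) (σ : ℚ) : ℕ :=
  (univ.filter (fun i => a i = σ)).card

/-- A configuration is a vector of natural numbers, one for each distinct size, of total size at
most `1`.  The entry of a size may exceed the multiplicity of the size. -/
def Config {n : ℕ} (a : Fin n → ℚ) : Type :=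
  {c : sizeSet a → ℕ // ∑ σ : sizeSet a, (σ : ℚ) * (c σ : ℚ) ≤ 1}

/-- The feasible solutions of the configuration linear program. -/
structure Feasible {n : ℕ} (a : Fin n → ℚ) (z : Config a →₀ ℝ) : Prop where
  nonneg : ∀ c, 0 ≤ z c
  cover : ∀ σ : sizeSet a, (mult a σ : ℝ) ≤ z.sum (fun c w => (c.1 σ : ℝ) * w)

/-- The value of the configuration linear program. -/
noncomputable def LP {n : ℕ} (a : Fin n → ℚ) : ℝ :=
  sInf {v : ℝ | ∃ z : Config a →₀ ℝ, Feasible a z ∧ v = z.sum (fun _ w => w)}

end Vale.Agent.P302
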