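import Vale.Agent.P302.Pk

/-!
A kernel-friendly exhaustive search that certifies that a multiset of sizes cannot be packed.
The items are coded as pairs (size, bit); a set of items is coded by the sum of its bits.
-/

namespace Vale.Agent.P302

/-- Evaluate the argument before substituting it. -/
noncomputable def force (n : ℕ) (f : ℕ → Bool) : Bool :=
  Nat.rec (motive := fun _ => Bool) (f 0) (fun m _ => f (Nat.succ m)) n

theorem force_eq (n : ℕ) (f : ℕ → Bool) : force n f = f n := by
  cases n <;> rfl

/-- The sizes of a list of items. -/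
def sizes (l : List (ℕ × ℕ)) : Multiset ℕ := (l.map Prod.fst : List ℕ)

/-- The code of a list of items. -/
def bits (l : List (ℕ × ℕ)) : ℕ := (l.map Prod.snd).sum

theorem sizes_cons (x : ℕ × ℕ) (l : List (ℕ × ℕ)) : sizes (x :: l) = x.1 ::ₘ sizes l := by
  simp [sizes]

theorem sizes_nil : sizes [] = 0 := by simp [sizes]

theorem bits_cons (x : ℕ × ℕ) (l : List (ℕ × ℕ)) : bits (x :: l) = x.2 + bits l := by
  simp [bits]

theorem bits_nil : bits [] = 0 := by simp [bits]

/-- `Split t a r`: the list `t` is split into the taken items `a` and the rest `r`; an item is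
left only if no later item of the same size is taken. -/
inductive Split : List (ℕ × ℕ) → List (ℕ × ℕ) → List (ℕ × ℕ) → Prop
  | nil : Split [] [] []
  | take {x : ℕ × ℕ} {t a r : List (ℕ × ℕ)} : Split t a r → Split (x :: t) (x :: a) r
  | skip {x : ℕ × ℕ} {t a r : List (ℕ × ℕ)} : Split t a r → (∀ y ∈ a, y.1 ≠ x.1) →
      Split (x :: t) a (x :: r)

theorem Split.sizes_eq {t a r : List (ℕ × ℕ)} (h : Split t a r) :
    sizes t = sizes a + sizes r := by
  induction h with
  | nil => simp [sizes_nil]
  | take _ ih => rw [sizes_cons, sizes_cons, ih, Multiset.cons_add]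
  | skip _ _ ih => rw [sizes_cons, sizes_cons, ih, Multiset.add_cons]

theorem Split.sublist {t a r : List (ℕ × ℕ)} (h : Split t a r) : r.Sublist t := by
  induction h with
  | nil => exact List.Sublist.refl _
  | take _ ih => exact ih.cons _
  | skip _ _ ih => exact ih.cons_cons _

theorem Split.exists_of_le (t : List (ℕ × ℕ)) : ∀ U : Multiset ℕ, U ≤ sizes t →
    ∃ a r, Split t a r ∧ sizes a = U := by
  induction t with
  | nil =>
    intro U hU
    refine ⟨[], [], Split.nil, ?_⟩
    rw [sizes_nil] at hU ⊢
    have : U = 0 := by simpa using hU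
    exact this.symm
  | cons x t ih =>
    intro U hU
    rw [sizes_cons] at hU
    by_cases hx : x.1 ∈ U
    · obtain ⟨V, rfl⟩ := Multiset.exists_cons_of_mem hx
      obtain ⟨a, r, h1, h2⟩ := ih V ((Multiset.cons_le_cons_iff _).1 hU)
      exact ⟨x :: a, r, Split.take h1, by rw [sizes_cons, h2]⟩
    · have hU' : U ≤ sizes t := (Multiset.le_cons_of_notMem hx).1 hU
      obtain ⟨a, r, h1, h2⟩ := ih U hU'
      refine ⟨a, x :: r, Split.skip h1 ?_, h2⟩
      intro y hy hyx
      apply hx
      rw [← h2, ← hyx]
      unfold sizes
      exact Multiset.mem_coe.2 (List.mem_map_of_mem hy)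

/-- Smaller of `w` and `v - 1`. -/
noncomputable def minw (w v : ℕ) : ℕ := bif Nat.ble v w then Nat.sub v 1 else w

theorem le_minw {w v x : ℕ} (h1 : x ≤ w) (h2 : x < v) : x ≤ minw w v := by
  unfold minw
  cases Nat.ble v w with
  | true => change x ≤ v - 1; omega
  | false => exact h1

/-- Enumerate the ways to fill the current bin.  The parameters are: free space, allowed waste,
total size of the remaining items, code of the items left so far, size last left. -/
noncomputable def fill (mem : ℕ → Bool) (todo : List (ℕ × ℕ)) : ℕ → ℕ → ℕ → ℕ → ℕ → Bool :=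
  List.rec (motive := fun _ => ℕ → ℕ → ℕ → ℕ → ℕ → Bool)
    (fun space w _ mask _ => bif Nat.ble space w then mem mask else true)
    (fun a _ ih space w rem mask last =>
      bif Nat.ble space (Nat.add w rem) then
        force (Nat.sub rem a.1) fun rem' =>
          (bif Nat.ble a.1 space then
            (bif Nat.beq a.1 last then true
              else force (Nat.sub space a.1) fun space' => ih space' w rem' mask last)
            else true) &&
          (force (minw w a.1) fun w' => force (Nat.add mask a.2) fun mask' =>
            ih space w' rem' mask' a.1)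
      else true) todo

theorem fill_cons (mem : ℕ → Bool) (a : ℕ × ℕ) (t : List (ℕ × ℕ)) (space w rem mask last : ℕ) :
    fill mem (a :: t) space w rem mask last =
      bif Nat.ble space (w + rem) then
          (bif Nat.ble a.1 space then
            (bif Nat.beq a.1 last then true
              else fill mem t (space - a.1) w (rem - a.1) mask last)
            else true) &&
            fill mem t space (minw w a.1) (rem - a.1) (mask + a.2) a.1
      else true := by
  change (bif Nat.ble space (Nat.add w rem) then
        force (Nat.sub rem a.1) fun rem' =>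
          (bif Nat.ble a.1 space then
            (bif Nat.beq a.1 last then true
              else force (Nat.sub space a.1) fun space' => fill mem t space' w rem' mask last)
            else true) &&
          (force (minw w a.1) fun w' => force (Nat.add mask a.2) fun mask' =>
            fill mem t space w' rem' mask' a.1)
      else true) = _
  rw [force_eq, force_eq, force_eq, force_eq]
  rfl

theorem fill_spec (mem : ℕ → Bool) (todo : List (ℕ × ℕ)) :
    ∀ space w rem mask last : ℕ, fill mem todo space w rem mask last = true →
      rem = (sizes todo).sum → ∀ a r : List (ℕ × ℕ), Split todo a r →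
      (∀ y ∈ a, y.1 ≠ last) → (sizes a).sum ≤ space → space ≤ w + (sizes a).sum →
      (∀ y ∈ r, space < (sizes a).sum + y.1) → mem (mask + bits r) = true := by
  induction todo with
  | nil =>
    intro space w rem mask last h _ a r hs _ _ h3 _
    cases hs
    rw [sizes_nil] at h3
    change (bif Nat.ble space w then mem mask else true) = true at h
    have h4 : Nat.ble space w = true := Nat.ble_eq_true_of_le (by simpa using h3)
    rw [h4] at h
    rw [bits_nil]
    exact h
  | cons x t ih =>
    intro space w rem mask last h hrem a r hs h1 h2 h3 h4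
    rw [fill_cons] at h
    have hsz := hs.sizes_eq
    have h5 : Nat.ble space (w + rem) = true := by
      apply Nat.ble_eq_true_of_le
      have : rem = (sizes a).sum + (sizes r).sum := by rw [hrem, hsz, Multiset.sum_add]
      omega
    rw [h5, cond_true, Bool.and_eq_true] at h
    obtain ⟨hA, hB⟩ := h
    have hrem' : rem - x.1 = (sizes t).sum := by
      rw [hrem, sizes_cons, Multiset.sum_cons]
      omega
    cases hs with
    | @take _ _ a r hs' =>
      have hx1 : x.1 ≤ space := by
        rw [sizes_cons, Multiset.sum_cons] at h2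
        omega
      have hx2 : x.1 ≠ last := h1 x (by simp)
      have hb1 : Nat.ble x.1 space = true := Nat.ble_eq_true_of_le hx1
      have hb2 : Nat.beq x.1 last = false := by
        cases hb : Nat.beq x.1 last with
        | false => rfl
        | true => exact absurd (Nat.eq_of_beq_eq_true hb) hx2
      rw [hb1, hb2, cond_true, cond_false] at hA
      rw [sizes_cons, Multiset.sum_cons] at h2 h3
      refine ih _ _ _ _ _ hA hrem' a r hs' (fun y hy => h1 y (by simp [hy])) ?_ ?_ ?_
      · omega
      · omega
      · intro y hy
        have := h4 y hy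
        rw [sizes_cons, Multiset.sum_cons] at this
        omega
    | @skip _ _ a r hs' hne =>
      have h6 := h4 x (by simp)
      rw [bits_cons, ← add_assoc]
      refine ih _ _ _ _ _ hB hrem' a r hs' hne h2 ?_ (fun y hy => h4 y (by simp [hy]))
      have h7 : space - (sizes a).sum ≤ minw w x.1 := le_minw (by omega) (by omega)
      omega

/-- Decode a set of items. -/
noncomputable def dec (items : List ℕ) : ℕ → ℕ → List (ℕ × ℕ) :=
  List.rec (motive := fun _ => ℕ → ℕ → List (ℕ × ℕ)) (fun _ _ => [])
    (fun s _ ih m w => bif Nat.beq (Nat.mod m 2) 1 then (s, w) :: ih (Nat.div m 2) (Nat.mul 2 w)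
      else ih (Nat.div m 2) (Nat.mul 2 w)) items

theorem dec_cons (s : ℕ) (t : List ℕ) (m w : ℕ) :
    dec (s :: t) m w = bif Nat.beq (m % 2) 1 then (s, w) :: dec t (m / 2) (2 * w)
      else dec t (m / 2) (2 * w) := rfl

theorem dec_cons_odd (s : ℕ) (t : List ℕ) (q w : ℕ) :
    dec (s :: t) (2 * q + 1) w = (s, w) :: dec t q (2 * w) := by
  rw [dec_cons]
  have h1 : (2 * q + 1) % 2 = 1 := by omega
  have h2 : (2 * q + 1) / 2 = q := by omega
  rw [h1, h2]
  rfl

theorem dec_cons_even (s : ℕ) (t : List ℕ) (q w : ℕ) :
    dec (s :: t) (2 * q) w = dec t q (2 * w) := by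
  rw [dec_cons]
  have h1 : (2 * q) % 2 = 0 := by omega
  have h2 : (2 * q) / 2 = q := by omega
  rw [h1, h2]
  rfl

theorem dec_sublist (items : List ℕ) : ∀ (m w : ℕ) (r : List (ℕ × ℕ)),
    r.Sublist (dec items m w) → ∃ q, bits r = w * q ∧ dec items q w = r := by
  induction items with
  | nil =>
    intro m w r hr
    have : r = [] := by
      change r.Sublist [] at hr
      simpa using hr
    subst this
    exact ⟨0, by simp [bits_nil], rfl⟩
  | cons s t ih =>
    intro m w r hr
    have key : ∀ r' : List (ℕ × ℕ), r'.Sublist (dec t (m / 2) (2 * w)) →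
        (∃ q, bits r' = w * q ∧ dec (s :: t) q w = r') ∧
        (∃ q, bits ((s, w) :: r') = w * q ∧ dec (s :: t) q w = (s, w) :: r') := by
      intro r' hr'
      obtain ⟨q, hq1, hq2⟩ := ih _ _ _ hr'
      refine ⟨⟨2 * q, ?_, ?_⟩, ⟨2 * q + 1, ?_, ?_⟩⟩
      · rw [hq1]; ring
      · rw [dec_cons_even, hq2]
      · rw [bits_cons, hq1]; ring
      · rw [dec_cons_odd, hq2]
    rw [dec_cons] at hr
    cases hb : Nat.beq (m % 2) 1 with
    | false =>
      rw [hb, cond_false] at hr
      exact (key r hr).1
    | true =>
      rw [hb, cond_true] at hr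
      cases hr with
      | cons _ h => exact (key r h).1
      | cons_cons _ h => exact (key _ h).2

/-- Total size. -/
noncomputable def tot (l : List (ℕ × ℕ)) : ℕ :=
  List.rec (motive := fun _ => ℕ) 0 (fun a _ ih => Nat.add a.1 ih) l

theorem tot_eq (l : List (ℕ × ℕ)) : tot l = (sizes l).sum := by
  induction l with
  | nil => rfl
  | cons a l ih =>
    rw [sizes_cons, Multiset.sum_cons, ← ih]
    rfl

/-- Check one set of items, given as a list, against `k + 1` bins. -/
noncomputable def chkl (L : ℕ) (mem : ℕ → Bool) (k : ℕ) (l : List (ℕ × ℕ)) : Bool :=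
  List.rec (motive := fun _ => Bool) false
    (fun x t _ => force (tot t) fun rem =>
      force (Nat.sub (Nat.mul (Nat.succ k) L) (Nat.add x.1 rem)) fun w =>
        force (Nat.sub L x.1) fun space => fill mem t space w rem 0 0) l

theorem chkl_cons (L : ℕ) (mem : ℕ → Bool) (k : ℕ) (x : ℕ × ℕ) (t : List (ℕ × ℕ)) :
    chkl L mem k (x :: t) =
      fill mem t (L - x.1) ((k + 1) * L - (x.1 + tot t)) (tot t) 0 0 := by
  change (force (tot t) fun rem =>
      force (Nat.sub (Nat.mul (Nat.succ k) L) (Nat.add x.1 rem)) fun w =>
        force (Nat.sub L x.1) fun space => fill mem t space w rem 0 0) = _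
  rw [force_eq, force_eq, force_eq]
  rfl

theorem chkl_spec {L : ℕ} {mem : ℕ → Bool} {k : ℕ} {l : List (ℕ × ℕ)}
    (h : chkl L mem k l = true) (hpos : ∀ y ∈ l, 0 < y.1)
    (hmem : ∀ r : List (ℕ × ℕ), r.Sublist l → mem (bits r) = true → ¬ Pk L k (sizes r)) :
    ¬ Pk L (k + 1) (sizes l) := by
  intro hP
  cases l with
  | nil => exact absurd h (by simp [chkl])
  | cons x t =>
    rw [chkl_cons] at h
    obtain ⟨B, h1, h2, h3, h4, h5⟩ := hP.exists_max (x := x.1) (by rw [sizes_cons]; simp)
    obtain ⟨U, rfl⟩ := Multiset.exists_cons_of_mem h2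
    rw [sizes_cons] at h1
    have hU : U ≤ sizes t := (Multiset.cons_le_cons_iff _).1 h1
    obtain ⟨a, r, hs, ha⟩ := Split.exists_of_le t U hU
    have hsz := hs.sizes_eq
    have hr : sizes (x :: t) - x.1 ::ₘ U = sizes r := by
      rw [sizes_cons, hsz, ha]
      have : x.1 ::ₘ (U + sizes r) = (x.1 ::ₘ U) + sizes r := by rw [Multiset.cons_add]
      rw [this, add_tsub_cancel_left]
    rw [hr] at h4 h5
    have h6 := h4.sum_le
    rw [Multiset.sum_cons] at h3
    have htot : tot t = U.sum + (sizes r).sum := by rw [tot_eq, hsz, Multiset.sum_add, ha]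
    have h7 : (k + 1) * L = k * L + L := by ring
    have h8 := fill_spec mem t _ _ _ _ _ h (tot_eq t) a r hs ?_ ?_ ?_ ?_
    · rw [zero_add] at h8
      exact hmem r (hs.sublist.cons x) h8 h4
    · intro y hy hy0
      have hyt : y ∈ t := by
        have := hs.sizes_eq
        clear h
        have key : ∀ {t a r : List (ℕ × ℕ)}, Split t a r → ∀ y ∈ a, y ∈ t := by
          intro t a r hs
          induction hs with
          | nil => simp
          | take _ ih =>
            intro y hy
            rcases List.mem_cons.1 hy with h | h
            · simp [h]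
            · simp [ih y h]
          | skip _ _ ih =>
            intro y hy
            simp [ih y hy]
        exact key hs y hy
      have := hpos y (by simp [hyt])
      omega
    · rw [ha]; omega
    · rw [ha, htot, h7]
      omega
    · intro y hy
      have hy' : y.1 ∈ sizes r := by
        unfold sizes
        exact Multiset.mem_coe.2 (List.mem_map_of_mem hy)
      have := h5 y.1 hy'
      rw [Multiset.sum_cons] at this
      rw [ha]
      omega

end Vale.Agent.P302
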