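import Vale.Agent.P302.Data

namespace Vale.Agent.P302

set_option maxRecDepth 100000 in
theorem chk2 : allT (chk theCap theItems 1 tab1) tab2 = true := by decide +kernel

set_option maxRecDepth 100000 in
theorem chk3 : allT (chk theCap theItems 2 tab2) tab3 = true := by decide +kernel

set_option maxRecDepth 100000 in
theorem chk4 : allT (chk theCap theItems 3 tab3) tab4 = true := by decide +kernel

set_option maxRecDepth 100000 in
theorem chk5 : allT (chk theCap theItems 4 tab4) tab5 = true := by decide +kernel

set_option maxRecDepth 100000 in
theorem chk6 : allT (chk theCap theItems 5 tab5) tab6 = true := by decide +kernel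

set_option maxRecDepth 100000 in
theorem chk7 : allT (chk theCap theItems 6 tab6) tab7 = true := by decide +kernel

set_option maxRecDepth 100000 in
theorem chk8 : allT (chk theCap theItems 7 tab7) tab8 = true := by decide +kernel

set_option maxRecDepth 100000 in
theorem chk9 : allT (chk theCap theItems 8 tab8) tab9 = true := by decide +kernel

end Vale.Agent.P302
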